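import Mathlib

/-!
P361 / LRO, block (8) REGULARITY, analytic half (helper771): a holomorphic function on a strip
whose real part is `≥ -(σ * Im z)^2 / 2` satisfies `|√f(1) - √f(0)| ≤ √2 * σ`.
-/

namespace Vale.Agent.P361.LRO.Reg

open Complex Metric Set

/-- Caratheodory bound for the derivative of a function with positive real part. -/
theorem norm_deriv_le_of_re_pos {F : ℂ → ℂ} {c : ℂ} {r : ℝ} (hr : 0 < r)
    (hd : DifferentiableOn ℂ F (ball c r)) (hp : ∀ z ∈ ball c r, 0 < (F z).re) :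
    ‖deriv F c‖ ≤ 2 * (F c).re / r := by
  set a : ℂ := F c with ha
  have hc : c ∈ ball c r := mem_ball_self hr
  have hpa : 0 < a.re := hp c hc
  set G : ℂ → ℂ := fun z => (F z - a) / (F z + (starRingEnd ℂ) a) with hG
  have hden : ∀ z ∈ ball c r, F z + (starRingEnd ℂ) a ≠ 0 := by
    intro z hz h0
    have h1 : (F z + (starRingEnd ℂ) a).re = 0 := by rw [h0]; simp
    have h2 : (F z + (starRingEnd ℂ) a).re = (F z).re + a.re := by simp
    have h3 := hp z hz
    linarith
  have hGd : DifferentiableOn ℂ G (ball c r) := by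
    intro z hz
    exact (((hd z hz).sub_const a).div ((hd z hz).add_const _) (hden z hz))
  have hGc : G c = 0 := by simp [hG, ← ha]
  have hmaps : MapsTo G (ball c r) (ball (G c) 1) := by
    intro z hz
    rw [hGc, mem_ball_zero_iff]
    have hd0 := hden z hz
    rw [hG]
    simp only [norm_div]
    rw [div_lt_one (norm_pos_iff.mpr hd0)]
    rw [← sq_lt_sq₀ (norm_nonneg _) (norm_nonneg _)]
    rw [← Complex.normSq_eq_norm_sq, ← Complex.normSq_eq_norm_sq]
    simp only [Complex.normSq_apply, Complex.sub_re, Complex.sub_im, Complex.add_re, Complex.add_im,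
      Complex.conj_re, Complex.conj_im]
    have h3 := mul_pos (hp z hz) hpa
    nlinarith [h3]
  have hS := Complex.norm_deriv_le_div_of_mapsTo_ball hGd
    (hmaps.mono_right ball_subset_closedBall) hr
  have hFd : HasDerivAt F (deriv F c) c :=
    (hd.differentiableAt (isOpen_ball.mem_nhds hc)).hasDerivAt
  have hGder : HasDerivAt G (deriv F c / (2 * (a.re : ℂ))) c := by
    have h1 : HasDerivAt (fun z => F z - a) (deriv F c) c := hFd.sub_const a
    have h2 : HasDerivAt (fun z => F z + (starRingEnd ℂ) a) (deriv F c) c := hFd.add_const _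
    have h3 := h1.div h2 (hden c hc)
    have h4 : (deriv F c * (F c + (starRingEnd ℂ) a) - (F c - a) * deriv F c)
        / (F c + (starRingEnd ℂ) a) ^ 2 = deriv F c / (2 * (a.re : ℂ)) := by
      rw [← ha, sub_self, zero_mul, sub_zero]
      have h5 : a + (starRingEnd ℂ) a = 2 * (a.re : ℂ) := by
        rw [Complex.add_conj]
        push_cast
        ring
      rw [h5]
      have h6 : (2 * (a.re : ℂ)) ≠ 0 := by
        have : (a.re : ℂ) ≠ 0 := by exact_mod_cast hpa.ne'
        exact mul_ne_zero two_ne_zero this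
      field_simp
    rw [h4] at h3
    exact h3
  rw [hGder.deriv] at hS
  rw [norm_div] at hS
  have h7 : ‖(2 * (a.re : ℂ))‖ = 2 * a.re := by
    rw [norm_mul, Complex.norm_real, Real.norm_of_nonneg hpa.le]
    simp
  rw [h7, div_le_div_iff₀ (by positivity) hr] at hS
  rw [le_div_iff₀ hr]
  linarith

/-- The same with `0 ≤ Re F`. -/
theorem norm_deriv_le_of_re_nonneg {F : ℂ → ℂ} {c : ℂ} {r : ℝ} (hr : 0 < r)
    (hd : DifferentiableOn ℂ F (ball c r)) (hp : ∀ z ∈ ball c r, 0 ≤ (F z).re) :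
    ‖deriv F c‖ ≤ 2 * (F c).re / r := by
  have key : ∀ e : ℝ, 0 < e → ‖deriv F c‖ ≤ 2 * (F c).re / r + 2 * e / r := by
    intro e he
    have h1 : DifferentiableOn ℂ (fun z => F z + (e : ℂ)) (ball c r) := hd.add_const _
    have h2 := norm_deriv_le_of_re_pos hr h1 (by
      intro z hz
      have := hp z hz
      simp only [Complex.add_re, Complex.ofReal_re]
      linarith)
    rw [deriv_add_const] at h2
    simp only [Complex.add_re, Complex.ofReal_re] at h2
    calc ‖deriv F c‖ ≤ 2 * ((F c).re + e) / r := h2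
      _ = _ := by ring
  refine le_of_forall_pos_le_add ?_
  intro d hd'
  have := key (d * r / 2) (by positivity)
  have h3 : 2 * (d * r / 2) / r = d := by field_simp
  rw [h3] at this
  exact this

/-- Strip version: `Re f z ≥ -(σ * Im z)^2 / 2` on `|Im z| < w`. -/
theorem norm_deriv_le_strip {f : ℂ → ℂ} {w σ : ℝ}
    (hd : DifferentiableOn ℂ f {z : ℂ | |z.im| < w})
    (hre : ∀ z : ℂ, |z.im| < w → -(σ * z.im) ^ 2 / 2 ≤ (f z).re)
    (s r : ℝ) (hr : 0 < r) (hrw : r ≤ w) :
    ‖deriv f (s : ℂ)‖ ≤ (2 * (f (s : ℂ)).re + (σ * r) ^ 2) / r := by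
  have hsub : ball (s : ℂ) r ⊆ {z : ℂ | |z.im| < w} := by
    intro z hz
    rw [mem_ball, Complex.dist_eq] at hz
    have h1 : |(z - (s : ℂ)).im| ≤ ‖z - (s : ℂ)‖ := Complex.abs_im_le_norm _
    simp only [Complex.sub_im, Complex.ofReal_im, sub_zero] at h1
    exact lt_of_lt_of_le (lt_of_le_of_lt h1 hz) hrw
  have h1 : DifferentiableOn ℂ (fun z => f z + (((σ * r) ^ 2 / 2 : ℝ) : ℂ)) (ball (s : ℂ) r) :=
    (hd.mono hsub).add_const _
  have h2 := norm_deriv_le_of_re_nonneg hr h1 (by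
    intro z hz
    have h3 := hre z (hsub hz)
    rw [mem_ball, Complex.dist_eq] at hz
    have h4 : |(z - (s : ℂ)).im| ≤ ‖z - (s : ℂ)‖ := Complex.abs_im_le_norm _
    simp only [Complex.sub_im, Complex.ofReal_im, sub_zero] at h4
    have h5 : |z.im| ≤ r := h4.trans hz.le
    have h6 : z.im ^ 2 ≤ r ^ 2 := by
      rw [← sq_abs]
      exact pow_le_pow_left₀ (abs_nonneg _) h5 2
    simp only [Complex.add_re, Complex.ofReal_re]
    have h7 : (σ * z.im) ^ 2 ≤ (σ * r) ^ 2 := by
      rw [mul_pow, mul_pow]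
      exact mul_le_mul_of_nonneg_left h6 (sq_nonneg σ)
    linarith)
  rw [deriv_add_const] at h2
  simp only [Complex.add_re, Complex.ofReal_re] at h2
  calc ‖deriv f (s : ℂ)‖ ≤ 2 * ((f (s : ℂ)).re + (σ * r) ^ 2 / 2) / r := h2
    _ = _ := by ring

/-- Optimised radius: `|f'(s)| ≤ 2 σ √(2 f(s))`. -/
theorem norm_deriv_le_sqrt {f : ℂ → ℂ} {w σ : ℝ} (hσ : 0 < σ) (hw : 0 < w)
    (hd : DifferentiableOn ℂ f {z : ℂ | |z.im| < w})
    (hre : ∀ z : ℂ, |z.im| < w → -(σ * z.im) ^ 2 / 2 ≤ (f z).re)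
    (s : ℝ) (hs : 2 * (f (s : ℂ)).re ≤ (σ * w) ^ 2) :
    ‖deriv f (s : ℂ)‖ ≤ 2 * σ * Real.sqrt (2 * (f (s : ℂ)).re) := by
  have h0 : 0 ≤ (f (s : ℂ)).re := by
    have := hre (s : ℂ) (by simpa using hw)
    simpa using this
  rcases h0.eq_or_lt with h0 | h0
  · -- the value is zero: let r tend to 0
    rw [← h0]
    simp only [mul_zero, Real.sqrt_zero]
    refine le_of_forall_pos_le_add ?_
    intro d hd'
    set r : ℝ := min w (d / σ ^ 2) with hr
    have hrp : 0 < r := lt_min hw (by positivity)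
    have h1 := norm_deriv_le_strip hd hre s r hrp (min_le_left _ _)
    rw [← h0] at h1
    have h2 : (2 * 0 + (σ * r) ^ 2) / r = σ ^ 2 * r := by field_simp; ring
    rw [h2] at h1
    have h3 : σ ^ 2 * r ≤ d := by
      calc σ ^ 2 * r ≤ σ ^ 2 * (d / σ ^ 2) :=
            mul_le_mul_of_nonneg_left (min_le_right _ _) (by positivity)
        _ = d := by field_simp
    linarith
  · set r : ℝ := Real.sqrt (2 * (f (s : ℂ)).re) / σ with hr
    have hq : 0 < Real.sqrt (2 * (f (s : ℂ)).re) := Real.sqrt_pos.mpr (by linarith)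
    have hrp : 0 < r := by positivity
    have hrw : r ≤ w := by
      rw [hr, div_le_iff₀ hσ]
      have := Real.sqrt_le_sqrt hs
      rw [Real.sqrt_sq (by positivity)] at this
      linarith
    have h1 := norm_deriv_le_strip hd hre s r hrp hrw
    have h2 : σ * r = Real.sqrt (2 * (f (s : ℂ)).re) := by rw [hr]; field_simp
    have h3 : (σ * r) ^ 2 = 2 * (f (s : ℂ)).re := by
      rw [h2, Real.sq_sqrt (by linarith)]
    have h4 : (2 * (f (s : ℂ)).re + (σ * r) ^ 2) / r = 2 * σ * Real.sqrt (2 * (f (s : ℂ)).re) := by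
      rw [h3, hr]
      rw [div_div_eq_mul_div]
      rw [div_eq_iff hq.ne']
      have h5 := Real.mul_self_sqrt (show (0:ℝ) ≤ 2 * (f (s : ℂ)).re by linarith)
      calc (2 * (f (s : ℂ)).re + 2 * (f (s : ℂ)).re) * σ
          = 2 * σ * (2 * (f (s : ℂ)).re) := by ring
        _ = 2 * σ * (Real.sqrt (2 * (f (s : ℂ)).re) * Real.sqrt (2 * (f (s : ℂ)).re)) := by rw [h5]
        _ = _ := by ring
    rw [h4] at h1
    exact h1

/-- (8-AN): `|√f(1) - √f(0)| ≤ √2 σ`. -/
theorem sqrt_sub_sqrt_le {f : ℂ → ℂ} {w σ : ℝ} (hσ : 0 ≤ σ) (hw : 0 < w)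
    (hd : DifferentiableOn ℂ f {z : ℂ | |z.im| < w})
    (hre : ∀ z : ℂ, |z.im| < w → -(σ * z.im) ^ 2 / 2 ≤ (f z).re)
    (hs : ∀ s : ℝ, 0 ≤ s → s ≤ 1 → 2 * (f (s : ℂ)).re ≤ (σ * w) ^ 2) :
    |Real.sqrt (f 1).re - Real.sqrt (f 0).re| ≤ Real.sqrt 2 * σ := by
  have hnn : ∀ s : ℝ, 0 ≤ (f (s : ℂ)).re := by
    intro s
    have := hre (s : ℂ) (by simpa using hw)
    simpa using this
  rcases hσ.eq_or_lt with hσ0 | hσ
  · -- σ = 0 : the value is zero at both ends
    have h1 := hs 1 zero_le_one le_rfl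
    have h0 := hs 0 le_rfl zero_le_one
    rw [← hσ0] at h1 h0
    have h1' := hnn 1
    have h0' := hnn 0
    simp only [Complex.ofReal_one, Complex.ofReal_zero] at h1 h0 h1' h0'
    have e1 : (f 1).re = 0 := by nlinarith
    have e0 : (f 0).re = 0 := by nlinarith
    rw [e1, e0, ← hσ0]
    simp
  have hder : ∀ s : ℝ, HasDerivAt (fun u : ℝ => (f (u : ℂ)).re) (deriv f (s : ℂ)).re s := by
    intro s
    have hopen : IsOpen {z : ℂ | |z.im| < w} :=
      isOpen_lt (continuous_abs.comp Complex.continuous_im) continuous_const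
    have hmem : (s : ℂ) ∈ {z : ℂ | |z.im| < w} := by simpa using hw
    have h1 : HasDerivAt f (deriv f (s : ℂ)) (s : ℂ) :=
      (hd.differentiableAt (hopen.mem_nhds hmem)).hasDerivAt
    exact h1.real_of_complex
  have key : ∀ e : ℝ, 0 < e →
      |Real.sqrt ((f 1).re + e) - Real.sqrt ((f 0).re + e)| ≤ Real.sqrt 2 * σ := by
    intro e he
    have hd2 : ∀ s ∈ Icc (0:ℝ) 1, HasDerivWithinAt
        (fun u : ℝ => Real.sqrt ((f (u : ℂ)).re + e))
        ((deriv f (s : ℂ)).re / (2 * Real.sqrt ((f (s : ℂ)).re + e))) (Icc 0 1) s := by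
      intro s _
      have h1 : HasDerivAt (fun u : ℝ => (f (u : ℂ)).re + e) (deriv f (s : ℂ)).re s :=
        (hder s).add_const e
      have h2 := h1.sqrt (by have := hnn s; positivity)
      exact h2.hasDerivWithinAt
    have hb : ∀ s ∈ Icc (0:ℝ) 1,
        ‖(deriv f (s : ℂ)).re / (2 * Real.sqrt ((f (s : ℂ)).re + e))‖ ≤ Real.sqrt 2 * σ := by
      intro s hs1
      have hn := hnn s
      have hq : 0 < Real.sqrt ((f (s : ℂ)).re + e) := Real.sqrt_pos.mpr (by linarith)
      rw [norm_div, Real.norm_of_nonneg (show (0:ℝ) ≤ 2 * Real.sqrt ((f (s : ℂ)).re + e) by positivity),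
        div_le_iff₀ (by positivity)]
      have h3 := norm_deriv_le_sqrt hσ hw hd hre s (hs s hs1.1 hs1.2)
      have h4 : ‖(deriv f (s : ℂ)).re‖ ≤ ‖deriv f (s : ℂ)‖ := by
        rw [Real.norm_eq_abs]; exact Complex.abs_re_le_norm _
      have h5 : Real.sqrt (2 * (f (s : ℂ)).re) ≤ Real.sqrt 2 * Real.sqrt ((f (s : ℂ)).re + e) := by
        rw [← Real.sqrt_mul (by norm_num)]
        exact Real.sqrt_le_sqrt (by linarith)
      calc ‖(deriv f (s : ℂ)).re‖ ≤ 2 * σ * Real.sqrt (2 * (f (s : ℂ)).re) := h4.trans h3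
        _ ≤ 2 * σ * (Real.sqrt 2 * Real.sqrt ((f (s : ℂ)).re + e)) :=
            mul_le_mul_of_nonneg_left h5 (by positivity)
        _ = _ := by ring
    have h6 := (convex_Icc (0:ℝ) 1).norm_image_sub_le_of_norm_hasDerivWithin_le hd2 hb
      (left_mem_Icc.mpr zero_le_one) (right_mem_Icc.mpr zero_le_one)
    simpa using h6
  -- let e tend to 0
  have hcont : Filter.Tendsto (fun e : ℝ =>
      |Real.sqrt ((f 1).re + e) - Real.sqrt ((f 0).re + e)|) (nhdsWithin 0 (Ioi 0))
      (nhds |Real.sqrt ((f 1).re + 0) - Real.sqrt ((f 0).re + 0)|) := by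
    refine Filter.Tendsto.mono_left ?_ nhdsWithin_le_nhds
    have : Continuous (fun e : ℝ => |Real.sqrt ((f 1).re + e) - Real.sqrt ((f 0).re + e)|) := by
      fun_prop
    exact this.tendsto 0
  simp only [add_zero] at hcont
  refine le_of_tendsto hcont ?_
  filter_upwards [self_mem_nhdsWithin] with e he
  exact key e he

end Vale.Agent.P361.LRO.Reg
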